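import Vale.Agent.P061.Dense.Weights

namespace Vale.Agent.P061.Dense

open Finset Vale.Agent.P061

variable {V E : Type} [Fintype V] [Fintype E]

/-- The simple graph carried by a set of edge copies. -/
def supportGraph (ends : E → Sym2 V) (H : Finset E) : SimpleGraph V :=
  SimpleGraph.fromEdgeSet (ends '' (H : Set E))

/-- Degree of a vertex in a set of edge copies. -/
noncomputable def degIn (ends : E → Sym2 V) (H : Finset E) (v : V) : ℕ := by
  classical exact (H.filter fun e => v ∈ ends e).card

/-- `H` is a connected edge set on `W` with `W.card - 1` edges and degrees at most `D`. -/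
def SmallTree (ends : E → Sym2 V) (P W : Finset V) (H : Finset E) (D : ℕ) : Prop :=
  W.Nonempty ∧ W ⊆ P ∧ H.card + 1 = W.card ∧ (∀ e ∈ H, ∀ v ∈ ends e, v ∈ W) ∧
    (∀ v, degIn ends H v ≤ D) ∧ ∀ a ∈ W, ∀ b ∈ W, (supportGraph ends H).Reachable a b

theorem sum_degIn_le (ends : E → Sym2 V) (H : Finset E) :
    ∑ v, degIn ends H v ≤ 2 * H.card := by
  classical
  unfold degIn
  simp only [card_filter]
  rw [sum_comm, mul_comm, ← smul_eq_mul]
  refine sum_le_card_nsmul _ _ _ fun e _ => ?_
  rw [← card_filter]
  generalize ends e = z
  induction z using Sym2.ind with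
  | _ a b =>
    refine le_trans (card_le_card (?_ : _ ⊆ ({a, b} : Finset V))) card_le_two
    intro v hv
    simp at hv
    simpa using hv

omit [Fintype V] [Fintype E] in
theorem supportGraph_mono (ends : E → Sym2 V) {H H' : Finset E} (h : H ⊆ H') :
    supportGraph ends H ≤ supportGraph ends H' :=
  SimpleGraph.fromEdgeSet_mono (Set.image_mono (coe_subset.2 h))

/-- An expanding vertex set carries a spanning tree of bounded degree. -/
theorem exists_bounded_tree [DecidableEq V] (ends : E → Sym2 V)
    (hl : ∀ e, ¬ (ends e).IsDiag) (μ k L Q : ℕ) (hk : 1 ≤ k)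
    (hm : ∀ a b, mult ends a b ≤ μ) (hμn : μ * Fintype.card V ≤ L * k)
    (P : Finset V) (hP : P.Nonempty)
    (hexp : ∀ X ⊆ P, k * min X.card (P \ X).card ≤ Q * between (mult ends) X (P \ X)) :
    ∃ H, SmallTree ends P P H (2 * Q * L + 1) := by
  classical
  set D := 2 * Q * L + 1 with hD
  obtain ⟨p, hp⟩ := hP
  have hstart : ∃ W H, SmallTree ends P W H D :=
    ⟨{p}, ∅, singleton_nonempty p, by simpa using hp, by simp, by simp, by simp [degIn],
      by intro a ha b hb; simp at ha hb; subst ha; subst hb; exact SimpleGraph.Reachable.refl _⟩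
  let cand := (univ : Finset (Finset V)).filter fun W => ∃ H, SmallTree ends P W H D
  have hcand : cand.Nonempty := by
    obtain ⟨W, h⟩ := hstart; exact ⟨W, mem_filter.2 ⟨mem_univ _, h⟩⟩
  obtain ⟨W, hW, hmax⟩ := exists_max_image cand card hcand
  obtain ⟨H, hWne, hWP, hcard, hin, hdeg, hreach⟩ := (mem_filter.1 hW).2
  by_cases hWeq : W = P
  · subst hWeq; exact ⟨H, hWne, hWP, hcard, hin, hdeg, hreach⟩
  exfalso
  set U := P \ W with hU
  have hUne : U.Nonempty := sdiff_nonempty.2 fun h => hWeq (subset_antisymm hWP h)
  set F := W.filter fun v => D ≤ degIn ends H v with hF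
  have hnone : ∀ a ∈ W \ F, ∀ b ∈ U, mult ends a b = 0 := by
    intro a ha b hb
    by_contra hne
    obtain ⟨e, he⟩ := card_pos.1 (Nat.pos_of_ne_zero hne)
    have he' : ends e = s(a, b) := by simpa using he
    have haW : a ∈ W := (mem_sdiff.1 ha).1
    have hbW : b ∉ W := (mem_sdiff.1 hb).2
    have halt : degIn ends H a < D := by
      by_contra hc
      exact (mem_sdiff.1 ha).2 (mem_filter.2 ⟨haW, by omega⟩)
    have heH : e ∉ H := fun h => hbW (hin e h b (by simp [he']))
    have hab : a ≠ b := fun h => hbW (h ▸ haW)
    have hnew : SmallTree ends P (insert b W) (insert e H) D := by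
      refine ⟨insert_nonempty _ _, ?_, ?_, ?_, ?_, ?_⟩
      · exact insert_subset (mem_sdiff.1 hb).1 hWP
      · rw [card_insert_of_notMem hbW, card_insert_of_notMem heH]; omega
      · intro x hx v hv
        rcases mem_insert.1 hx with rfl | hx
        · rw [he'] at hv; simp at hv
          rcases hv with rfl | rfl <;> simp [haW]
        · exact mem_insert_of_mem (hin x hx v hv)
      · intro v
        have hd : degIn ends (insert e H) v = degIn ends H v + if v ∈ ends e then 1 else 0 := by
          simp only [degIn]
          rw [filter_insert]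
          by_cases hv : v ∈ ends e
          · rw [if_pos hv, if_pos hv, card_insert_of_notMem (by simp [heH])]
          · rw [if_neg hv, if_neg hv, add_zero]
        rw [hd]
        by_cases hv : v ∈ ends e
        · rw [if_pos hv]
          rw [he'] at hv; simp at hv
          rcases hv with rfl | rfl
          · omega
          · have : degIn ends H v = 0 := by
              simp only [degIn, card_eq_zero, filter_eq_empty_iff]
              exact fun x hx h => hbW (hin x hx v h)
            omega
        · rw [if_neg hv]; simpa using hdeg v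
      · have hle := supportGraph_mono ends (subset_insert e H)
        have hadj : (supportGraph ends (insert e H)).Adj a b := by
          rw [supportGraph, SimpleGraph.fromEdgeSet_adj]
          exact ⟨⟨e, by simp, he'⟩, hab⟩
        have hto : ∀ x ∈ insert b W, (supportGraph ends (insert e H)).Reachable a x := by
          intro x hx
          rcases mem_insert.1 hx with rfl | hx
          · exact hadj.reachable
          · exact (hreach a haW x hx).mono hle
        exact fun x hx y hy => (hto x hx).symm.trans (hto y hy)
    have := hmax _ (mem_filter.2 ⟨mem_univ _, _, hnew⟩)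
    rw [card_insert_of_notMem hbW] at this
    omega
  have hFcard : F.card * D ≤ 2 * W.card := by
    calc F.card * D ≤ ∑ v ∈ F, degIn ends H v := by
          rw [← smul_eq_mul]; exact card_nsmul_le_sum _ _ _ fun v hv => (mem_filter.1 hv).2
      _ ≤ ∑ v, degIn ends H v := sum_le_sum_of_subset (subset_univ _)
      _ ≤ 2 * H.card := sum_degIn_le ends H
      _ ≤ 2 * W.card := by omega
  have hbet : between (mult ends) W U ≤ F.card * U.card * μ := by
    refine le_trans (le_of_eq ?_) (between_le_mul _ μ hm F U)
    unfold between
    refine (sum_subset (filter_subset _ _) ?_).symm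
    intro a ha haF
    exact sum_eq_zero fun b hb => hnone a (mem_sdiff.2 ⟨ha, haF⟩) b hb
  have hmain : k * min W.card U.card * D ≤ 2 * Q * μ * (W.card * U.card) := by
    calc k * min W.card U.card * D ≤ Q * between (mult ends) W U * D :=
          Nat.mul_le_mul_right _ (hexp W hWP)
      _ ≤ Q * (F.card * U.card * μ) * D := by gcongr
      _ = Q * μ * U.card * (F.card * D) := by ring
      _ ≤ Q * μ * U.card * (2 * W.card) := Nat.mul_le_mul_left _ hFcard
      _ = _ := by ring
  have hprod : W.card * U.card ≤ min W.card U.card * Fintype.card V := by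
    rcases le_total W.card U.card with h | h
    · rw [min_eq_left h]; exact Nat.mul_le_mul_left _ (card_le_univ U)
    · rw [min_eq_right h, mul_comm]; exact Nat.mul_le_mul_left _ (card_le_univ W)
  have hminpos : 0 < min W.card U.card := lt_min hWne.card_pos hUne.card_pos
  have hfin : k * min W.card U.card * D ≤ k * min W.card U.card * (2 * Q * L) := by
    refine hmain.trans ?_
    calc 2 * Q * μ * (W.card * U.card) ≤ 2 * Q * μ * (min W.card U.card * Fintype.card V) :=
          Nat.mul_le_mul_left _ hprod
      _ = 2 * Q * min W.card U.card * (μ * Fintype.card V) := by ring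
      _ ≤ 2 * Q * min W.card U.card * (L * k) := Nat.mul_le_mul_left _ hμn
      _ = _ := by ring
  have := Nat.le_of_mul_le_mul_left hfin (Nat.mul_pos hk hminpos)
  omega

/-- A bounded-degree edge set inside `P` crosses a cut at most `D` times each smaller side. -/
theorem cutSize_tree_le [DecidableEq V] (ends : E → Sym2 V) (P : Finset V) (H : Finset E) (D : ℕ)
    (h : SmallTree ends P P H D) (S : Finset V) :
    cutSize ends H S ≤ D * min (P ∩ S).card (P \ (P ∩ S)).card := by
  classical
  obtain ⟨-, -, -, hin, hdeg, -⟩ := h
  have key : ∀ A : Finset V, (∀ e ∈ H, Crosses ends S e → ∃ v ∈ A, v ∈ ends e) →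
      cutSize ends H S ≤ D * A.card := by
    intro A hA
    calc cutSize ends H S ≤ (A.biUnion fun v => H.filter fun e => v ∈ ends e).card := by
          unfold cutSize
          refine card_le_card fun e he => ?_
          obtain ⟨heH, hc⟩ := mem_filter.1 he
          obtain ⟨v, hv, hve⟩ := hA e heH hc
          exact mem_biUnion.2 ⟨v, hv, mem_filter.2 ⟨heH, hve⟩⟩
      _ ≤ ∑ v ∈ A, (H.filter fun e => v ∈ ends e).card := card_biUnion_le
      _ ≤ ∑ _v ∈ A, D := sum_le_sum fun v _ => by
          have := hdeg v
          unfold degIn at this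
          exact le_of_eq_of_le (by congr! 2) this
      _ = D * A.card := by simp [mul_comm]
  rcases le_total (P ∩ S).card (P \ (P ∩ S)).card with hle | hle
  · rw [min_eq_left hle]
    refine key _ fun e he hc => ?_
    obtain ⟨a, b, hab, ha, -⟩ := hc
    exact ⟨a, mem_inter.2 ⟨hin e he a (by simp [hab]), ha⟩, by simp [hab]⟩
  · rw [min_eq_right hle]
    refine key _ fun e he hc => ?_
    obtain ⟨a, b, hab, -, hb⟩ := hc
    exact ⟨b, mem_sdiff.2 ⟨hin e he b (by simp [hab]), fun h => hb (mem_inter.1 h).2⟩,
      by simp [hab]⟩

end Vale.Agent.P061.Dense
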