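import Vale.Agent.P061.Dense.Partition
import Vale.Agent.P061.Dense.Tree

namespace Vale.Agent.P061.Dense

open Finset Vale.Agent.P061

variable {V E : Type} [Fintype V] [Fintype E]

omit [Fintype V] [Fintype E] in
theorem exists_ends (ends : E → Sym2 V) (e : E) : ∃ a b, ends e = s(a, b) := by
  induction ends e using Sym2.ind with
  | _ a b => exact ⟨a, b, rfl⟩

theorem cutSize_mono (ends : E → Sym2 V) {H H' : Finset E} (h : H ⊆ H') (S : Finset V) :
    cutSize ends H S ≤ cutSize ends H' S := by
  classical
  unfold cutSize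
  exact card_le_card (filter_subset_filter _ h)

/-- A connected edge set contains a spanning tree. -/
theorem exists_spanning_subset (ends : E → Sym2 V) (H : Finset E)
    (h : (supportGraph ends H).Connected) : ∃ T ⊆ H, IsSpanningTree ends T := by
  classical
  obtain ⟨G, hle, hG⟩ := h.exists_isTree_le
  have hpre : ∀ z ∈ G.edgeFinset, ∃ e ∈ H, ends e = z := by
    intro z hz
    have h1 : z ∈ (supportGraph ends H).edgeSet :=
      SimpleGraph.edgeSet_mono hle (SimpleGraph.mem_edgeFinset.1 hz)
    rw [supportGraph, SimpleGraph.edgeSet_fromEdgeSet] at h1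
    exact h1.1
  choose pick hpick1 hpick2 using hpre
  refine ⟨G.edgeFinset.attach.image fun z => pick z.1 z.2, ?_, ?_, ?_⟩
  · intro e he
    obtain ⟨z, -, rfl⟩ := mem_image.1 he
    exact hpick1 _ _
  · rw [card_image_of_injective, card_attach]
    · exact hG.card_edgeFinset
    · intro x y hxy
      have := congrArg ends hxy
      simp only [hpick2] at this
      exact Subtype.ext this
  · refine hG.connected.mono ?_
    intro a b hab
    rw [SimpleGraph.fromEdgeSet_adj]
    refine ⟨?_, hab.ne⟩
    have hz : s(a, b) ∈ G.edgeFinset := SimpleGraph.mem_edgeFinset.2 hab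
    exact ⟨pick _ hz, mem_image.2 ⟨⟨_, hz⟩, mem_attach _ _, rfl⟩, hpick2 _ hz⟩

/-- The final constant. -/
def denseConst (L : ℕ) : ℕ := (2 * expConst L * L + 1) * expConst L + (4 * L) ^ 2

theorem exists_thin_of_dense [DecidableEq V] (ends : E → Sym2 V) (hl : ∀ e, ¬ (ends e).IsDiag)
    (μ k L : ℕ) (hk : 1 ≤ k) (hL : 1 ≤ L) (hV : 2 ≤ Fintype.card V)
    (hc : EdgeConn ends k) (hm : ∀ a b, mult ends a b ≤ μ)
    (hμn : μ * Fintype.card V ≤ L * k) :
    ∃ T, IsSpanningTree ends T ∧ ∀ S : Finset V, S.Nonempty → S ≠ univ →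
      k * cutSize ends T S ≤ denseConst L * cutSize ends univ S := by
  classical
  obtain ⟨g, hgcard, hexp⟩ := exists_expander_partition (mult ends) μ k L (mult_comm ends) hm
    (le_mult_sum ends k hc hV) hk hL (by omega) hμn
  set Q := expConst L with hQ
  set D := 2 * Q * L + 1 with hD
  set I := univ.image g with hI
  have htree : ∀ i : I, ∃ H, SmallTree ends (fib g i.1) (fib g i.1) H D := by
    intro i
    refine exists_bounded_tree ends hl μ k L Q hk hm hμn _ ?_ (hexp i.1)
    obtain ⟨v, -, hv⟩ := mem_image.1 i.2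
    exact ⟨v, by simp [fib, hv]⟩
  choose tr htr using htree
  set pairs := (I ×ˢ I).filter fun ij => ∃ e a b, ends e = s(a, b) ∧ g a = ij.1 ∧ g b = ij.2
    with hpairs
  have hcon : ∀ ij : pairs, ∃ e a b, ends e = s(a, b) ∧ g a = ij.1.1 ∧ g b = ij.1.2 :=
    fun ij => (mem_filter.1 ij.2).2
  choose con hcon' using hcon
  set J := pairs.attach.image con with hJ
  set H := (univ.biUnion tr) ∪ J with hH
  have hsame : ∀ a b, g a = g b → (supportGraph ends H).Reachable a b := by
    intro a b hab
    have hi : g a ∈ I := mem_image_of_mem g (mem_univ a)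
    refine ((htr ⟨g a, hi⟩).2.2.2.2.2 a (by simp [fib]) b (by simp [fib, hab])).mono
      (supportGraph_mono ends ?_)
    intro e he
    exact mem_union_left _ (mem_biUnion.2 ⟨⟨g a, hi⟩, mem_univ _, he⟩)
  have hedge : ∀ e a b, ends e = s(a, b) → (supportGraph ends H).Reachable a b := by
    intro e a b he
    have hp : (g a, g b) ∈ pairs :=
      mem_filter.2 ⟨mem_product.2 ⟨mem_image_of_mem g (mem_univ a), mem_image_of_mem g (mem_univ b)⟩,
        e, a, b, he, rfl, rfl⟩
    obtain ⟨a', b', he', ha', hb'⟩ := hcon' ⟨_, hp⟩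
    have hne : a' ≠ b' := by
      intro h
      apply hl (con ⟨_, hp⟩)
      rw [he', h]
      simp
    have hadj : (supportGraph ends H).Adj a' b' := by
      rw [supportGraph, SimpleGraph.fromEdgeSet_adj]
      exact ⟨⟨con ⟨_, hp⟩, mem_union_right _ (mem_image.2 ⟨_, mem_attach _ _, rfl⟩), he'⟩, hne⟩
    exact ((hsame a a' ha'.symm).trans hadj.reachable).trans (hsame b' b hb')
  have hconn : (supportGraph ends H).Connected := by
    obtain ⟨v⟩ : Nonempty V := Fintype.card_pos_iff.1 (by omega)
    rw [SimpleGraph.connected_iff_exists_forall_reachable]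
    refine ⟨v, fun u => ?_⟩
    by_contra hu
    set S := univ.filter fun x => (supportGraph ends H).Reachable v x with hS
    have hvS : v ∈ S := by simp [hS]
    have huS : u ∉ S := by simp [hS, hu]
    have h1 := hc S ⟨v, hvS⟩ (fun h => huS (h ▸ mem_univ u))
    obtain ⟨e, he⟩ : (univ.filter (Crosses ends S)).Nonempty := by
      rw [← card_pos]
      unfold cutSize at h1
      omega
    obtain ⟨a, b, hab, ha, hb⟩ := (mem_filter.1 he).2
    exact hb (mem_filter.2 ⟨mem_univ _, ((mem_filter.1 ha).2).trans (hedge e a b hab)⟩)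
  obtain ⟨T, hTH, hT⟩ := exists_spanning_subset ends H hconn
  refine ⟨T, hT, fun S hS1 hS2 => ?_⟩
  have hJcard : J.card ≤ (4 * L) ^ 2 := by
    calc J.card ≤ pairs.attach.card := card_image_le
      _ = pairs.card := card_attach
      _ ≤ (I ×ˢ I).card := card_filter_le _ _
      _ = I.card * I.card := card_product _ _
      _ ≤ (4 * L) * (4 * L) := Nat.mul_le_mul hgcard hgcard
      _ = _ := by ring
  have hcut : cutSize ends T S ≤ (∑ i : I, cutSize ends (tr i) S) + J.card := by
    refine (cutSize_mono ends hTH S).trans ?_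
    unfold cutSize
    rw [hH, filter_union, filter_biUnion]
    exact (card_union_le _ _).trans (add_le_add card_biUnion_le (card_filter_le _ _))
  have hpart : ∀ i : I, k * cutSize ends (tr i) S ≤
      D * Q * between (mult ends) (fib g i.1 ∩ S) Sᶜ := by
    intro i
    calc k * cutSize ends (tr i) S
        ≤ k * (D * min (fib g i.1 ∩ S).card (fib g i.1 \ (fib g i.1 ∩ S)).card) :=
          Nat.mul_le_mul_left _ (cutSize_tree_le ends _ _ D (htr i) S)
      _ = D * (k * min (fib g i.1 ∩ S).card (fib g i.1 \ (fib g i.1 ∩ S)).card) := by ring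
      _ ≤ D * (Q * between (mult ends) (fib g i.1 ∩ S) (fib g i.1 \ (fib g i.1 ∩ S))) :=
          Nat.mul_le_mul_left _ (hexp i.1 _ inter_subset_left)
      _ ≤ D * (Q * between (mult ends) (fib g i.1 ∩ S) Sᶜ) := by
          refine Nat.mul_le_mul_left _ (Nat.mul_le_mul_left _
            (between_mono _ (Subset.refl _) ?_))
          intro x hx
          simp only [mem_sdiff, mem_inter] at hx
          rw [mem_compl]
          exact fun h => hx.2 ⟨hx.1, h⟩
      _ = _ := by ring
  have hsum : ∑ i : I, between (mult ends) (fib g i.1 ∩ S) Sᶜ = cutSize ends univ S := by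
    rw [cutSize_eq_between, sum_coe_sort I (fun i => between (mult ends) (fib g i ∩ S) Sᶜ)]
    unfold between
    rw [← sum_fiberwise_of_maps_to (t := I) (g := g) (s := S)
      (fun x _ => mem_image_of_mem g (mem_univ x))]
    refine sum_congr rfl fun i _ => sum_congr ?_ fun x _ => rfl
    ext x
    simp [fib, and_comm]
  calc k * cutSize ends T S ≤ k * ((∑ i : I, cutSize ends (tr i) S) + J.card) :=
        Nat.mul_le_mul_left _ hcut
    _ = (∑ i : I, k * cutSize ends (tr i) S) + J.card * k := by rw [← mul_sum]; ring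
    _ ≤ (∑ i : I, D * Q * between (mult ends) (fib g i.1 ∩ S) Sᶜ) +
          (4 * L) ^ 2 * cutSize ends univ S :=
        add_le_add (sum_le_sum fun i _ => hpart i) (Nat.mul_le_mul hJcard (hc S hS1 hS2))
    _ = D * Q * cutSize ends univ S + (4 * L) ^ 2 * cutSize ends univ S := by
        rw [← mul_sum, hsum]
    _ = denseConst L * cutSize ends univ S := by rw [denseConst, hD, hQ]; ring

end Vale.Agent.P061.Dense
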