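import Vale.Agent.P061.Dense.Weights

namespace Vale.Agent.P061.Dense

open Finset

variable {V : Type} [Fintype V] [DecidableEq V]

/-- Total weight of ordered pairs with different labels. -/
def crossWeight (w : V → V → ℕ) (f : V → ℕ) : ℕ :=
  ∑ a, ∑ b, if f a ≠ f b then w a b else 0

/-- The class of a label. -/
def fib (f : V → ℕ) (i : ℕ) : Finset V := univ.filter fun u => f u = i

/-- A partition into `r` large classes with small crossing weight. -/
def Good (w : V → V → ℕ) (μ L B r : ℕ) : Prop :=
  ∃ f : V → ℕ, (univ.image f).card = r ∧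
    (∀ v, Fintype.card V ≤ 4 * L * (fib f (f v)).card) ∧
    B ^ (4 * L + 1 - r) * crossWeight w f ≤ μ * Fintype.card V ^ 2

theorem card_image_le_of_large (f : V → ℕ) (L : ℕ) (hn : 0 < Fintype.card V)
    (h : ∀ v, Fintype.card V ≤ 4 * L * (fib f (f v)).card) :
    (univ.image f).card ≤ 4 * L := by
  have h1 : (univ.image f).card * Fintype.card V ≤ ∑ i ∈ univ.image f, 4 * L * (fib f i).card := by
    rw [← smul_eq_mul]
    refine card_nsmul_le_sum _ _ _ ?_
    intro i hi
    obtain ⟨v, _, rfl⟩ := mem_image.1 hi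
    exact h v
  have h2 : ∑ i ∈ univ.image f, (fib f i).card = Fintype.card V :=
    (card_eq_sum_card_image f univ).symm
  rw [← mul_sum, h2] at h1
  exact Nat.le_of_mul_le_mul_right h1 hn

/-- The constant base. -/
def base (L : ℕ) : ℕ := 128 * L ^ 3 * (4 * L + 1)

/-- The expansion constant. -/
def expConst (L : ℕ) : ℕ := 4 * base L ^ (4 * L) + 16 * L

/-- Dense weighted graphs split into boundedly many expanding classes. -/
theorem exists_expander_partition (w : V → V → ℕ) (μ k L : ℕ)
    (hs : ∀ a b, w a b = w b a) (hw : ∀ a b, w a b ≤ μ) (hdeg : ∀ v, k ≤ ∑ b, w v b)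
    (hk : 1 ≤ k) (hL : 1 ≤ L) (hn : 0 < Fintype.card V) (hμn : μ * Fintype.card V ≤ L * k) :
    ∃ g : V → ℕ, (univ.image g).card ≤ 4 * L ∧
      ∀ (i : ℕ) (X : Finset V), X ⊆ fib g i →
        k * min X.card (fib g i \ X).card ≤ expConst L * between w X (fib g i \ X) := by
  classical
  set n := Fintype.card V with hn'
  have hμ : 1 ≤ μ := by
    by_contra h
    obtain ⟨v⟩ : Nonempty V := Fintype.card_pos_iff.1 hn
    have := hdeg v
    have h0 : ∀ b, w v b = 0 := fun b => by have := hw v b; omega
    simp [h0] at this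
    omega
  have hB : 0 < base L := by unfold base; positivity
  have hkμn : k ≤ μ * n := by
    obtain ⟨v⟩ : Nonempty V := Fintype.card_pos_iff.1 hn
    refine (hdeg v).trans ((sum_le_card_nsmul univ (w v) μ fun b _ => hw v b).trans ?_)
    simp [hn', mul_comm]
  have hg1 : Good w μ L (base L) 1 := by
    refine ⟨fun _ => 0, ?_, ?_, ?_⟩
    · have : Nonempty V := Fintype.card_pos_iff.1 hn
      rw [card_eq_one]; exact ⟨0, image_const univ_nonempty 0⟩
    · intro v; simp [fib]; nlinarith
    · simp [crossWeight]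
  obtain ⟨r, ⟨f, hfr, hfsize, hfcross⟩, hmax⟩ :
      ∃ r, Good w μ L (base L) r ∧ ¬ Good w μ L (base L) (r + 1) := by
    by_contra hne
    push Not at hne
    have hall : ∀ j, Good w μ L (base L) (j + 1) := by
      intro j
      induction j with
      | zero => exact hg1
      | succ j ih => exact hne _ ih
    obtain ⟨f, h1, h2, -⟩ := hall (4 * L)
    have := card_image_le_of_large f L hn h2
    omega
  have hr : r ≤ 4 * L := hfr ▸ card_image_le_of_large f L hn hfsize
  set B := base L with hB'
  set M := B ^ (4 * L + 1 - r) with hM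
  set N := B ^ (4 * L - r) with hN
  have hMN : M = N * B := by rw [hM, hN, ← pow_succ]; congr 1; omega
  have hNpos : 1 ≤ N := Nat.one_le_pow _ _ hB
  have hMB : B ≤ M := by rw [hMN]; exact Nat.le_mul_of_pos_left _ hNpos
  have hB8 : 16 * L ^ 2 < B := by
    rw [hB', base]
    have h1 : L ^ 2 ≤ L ^ 3 := Nat.pow_le_pow_right hL (by norm_num)
    have h2 : 128 * L ^ 3 ≤ 128 * L ^ 3 * (4 * L + 1) := Nat.le_mul_of_pos_right _ (by omega)
    have h3 : 0 < L ^ 2 := by positivity
    omega
  set cr : V → ℕ := fun v => ∑ b, if f v ≠ f b then w v b else 0 with hcr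
  set Bad := univ.filter (fun v => k < 2 * cr v) with hBad
  have hbad1 : Bad.card * k ≤ 2 * crossWeight w f := by
    calc Bad.card * k ≤ ∑ v ∈ Bad, 2 * cr v := by
          rw [← smul_eq_mul]
          exact card_nsmul_le_sum _ _ _ fun v hv => (mem_filter.1 hv).2.le
      _ ≤ ∑ v, 2 * cr v := sum_le_sum_of_subset (subset_univ _)
      _ = 2 * crossWeight w f := by rw [← mul_sum]; rfl
  have hbad2 : Bad.card * M ≤ 2 * L * n := by
    refine Nat.le_of_mul_le_mul_right (?_ : Bad.card * M * k ≤ 2 * L * n * k) hk
    calc Bad.card * M * k = M * (Bad.card * k) := by ring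
      _ ≤ M * (2 * crossWeight w f) := Nat.mul_le_mul_left _ hbad1
      _ = 2 * (M * crossWeight w f) := by ring
      _ ≤ 2 * (μ * n ^ 2) := Nat.mul_le_mul_left _ hfcross
      _ = 2 * n * (μ * n) := by ring
      _ ≤ 2 * n * (L * k) := Nat.mul_le_mul_left _ hμn
      _ = 2 * L * n * k := by ring
  have hbad3 : 8 * (μ * Bad.card) ≤ k := by
    refine Nat.le_of_mul_le_mul_right (?_ : 8 * (μ * Bad.card) * M ≤ k * M) (by omega)
    calc 8 * (μ * Bad.card) * M = 8 * μ * (Bad.card * M) := by ring
      _ ≤ 8 * μ * (2 * L * n) := Nat.mul_le_mul_left _ hbad2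
      _ = 16 * L * (μ * n) := by ring
      _ ≤ 16 * L * (L * k) := Nat.mul_le_mul_left _ hμn
      _ = k * (16 * L ^ 2) := by ring
      _ ≤ k * M := Nat.mul_le_mul_left _ (by omega)
  have hbad4 : 8 * L * Bad.card < 2 * n := by
    refine Nat.lt_of_mul_lt_mul_right (a := M) ?_
    calc 8 * L * Bad.card * M = 8 * L * (Bad.card * M) := by ring
      _ ≤ 8 * L * (2 * L * n) := Nat.mul_le_mul_left _ hbad2
      _ = n * (16 * L ^ 2) := by ring
      _ < n * M := Nat.mul_lt_mul_of_pos_left (by omega) hn
      _ ≤ 2 * n * M := by nlinarith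
  have hcore : ∀ v, ∃ u, u ∉ Bad ∧ f u = f v := by
    intro v
    by_contra hne
    push Not at hne
    have hsub : fib f (f v) ⊆ Bad := fun u hu => by
      by_contra h; exact hne u h (mem_filter.1 hu).2
    have := hfsize v
    have h2 : 4 * L * (fib f (f v)).card ≤ 4 * L * Bad.card :=
      Nat.mul_le_mul_left _ (card_le_card hsub)
    have : 4 * L * Bad.card < n := by linarith
    omega
  set q : V → ℕ → ℕ := fun v i => ∑ b ∈ (univ \ Bad).filter (fun b => f b = i), w v b with hq
  have himne : (univ.image f).Nonempty := by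
    have : Nonempty V := Fintype.card_pos_iff.1 hn
    exact univ_nonempty.image f
  have hlab : ∀ v, ∃ i ∈ univ.image f, ∀ j ∈ univ.image f, q v j ≤ q v i :=
    fun v => exists_max_image _ _ himne
  choose lab hlab1 hlab2 using hlab
  set g : V → ℕ := fun v => if v ∈ Bad then lab v else f v with hg
  have himg : univ.image g = univ.image f := by
    ext i
    simp only [mem_image, mem_univ, true_and]
    constructor
    · rintro ⟨v, rfl⟩
      by_cases hv : v ∈ Bad
      · simp only [hg, if_pos hv]
        simpa using hlab1 v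
      · exact ⟨v, by simp [hg, hv]⟩
    · rintro ⟨v, rfl⟩
      obtain ⟨u, hu1, hu2⟩ := hcore v
      exact ⟨u, by simp [hg, hu1, hu2]⟩
  have hint : ∀ v, k ≤ 8 * L * (∑ b ∈ fib g (g v), w v b) := by
    intro v
    have hcoresub : ∀ i, (univ \ Bad).filter (fun b => f b = i) ⊆ fib g i := by
      intro i b hb
      simp only [mem_filter, mem_sdiff, mem_univ, true_and] at hb
      simp [fib, hg, hb.1, hb.2]
    have hBadw : ∑ b ∈ Bad, w v b ≤ μ * Bad.card := by
      refine (sum_le_card_nsmul _ _ μ fun b _ => hw v b).trans ?_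
      simp [mul_comm]
    by_cases hv : v ∈ Bad
    · have hgv : g v = lab v := by simp [hg, hv]
      have h1 : q v (lab v) ≤ ∑ b ∈ fib g (g v), w v b := by
        rw [hgv]; exact sum_le_sum_of_subset (hcoresub _)
      have h2 : ∑ b ∈ univ \ Bad, w v b ≤ (univ.image f).card * q v (lab v) := by
        rw [← smul_eq_mul]
        calc ∑ b ∈ univ \ Bad, w v b
            = ∑ j ∈ univ.image f, q v j := by
              rw [hq]
              exact (sum_fiberwise_of_maps_to (fun b _ => mem_image_of_mem f (mem_univ b)) _).symm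
          _ ≤ _ := sum_le_card_nsmul _ _ _ (hlab2 v)
      have h3 : ∑ b ∈ univ \ Bad, w v b + ∑ b ∈ Bad, w v b = ∑ b, w v b :=
        sum_sdiff (subset_univ Bad)
      have h4 : (univ.image f).card * q v (lab v) ≤ 4 * L * ∑ b ∈ fib g (g v), w v b :=
        Nat.mul_le_mul (by omega) h1
      have := hdeg v
      have h5 : 8 * L * (∑ b ∈ fib g (g v), w v b) = 2 * (4 * L * ∑ b ∈ fib g (g v), w v b) := by
        ring
      omega
    · have h1 : fib f (f v) ⊆ fib g (g v) ∪ Bad := by
        intro b hb
        by_cases hbb : b ∈ Bad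
        · exact mem_union_right _ hbb
        · apply mem_union_left
          simp only [fib, mem_filter, mem_univ, true_and] at hb ⊢
          simp [hg, hv, hbb, hb]
      have h2 : ∑ b ∈ fib f (f v), w v b ≤ ∑ b ∈ fib g (g v), w v b + ∑ b ∈ Bad, w v b :=
        (sum_le_sum_of_subset h1).trans (by rw [← sum_union_inter]; omega)
      have h3 : ∑ b ∈ fib f (f v), w v b + cr v = ∑ b, w v b := by
        rw [hcr, fib, sum_filter, ← sum_add_distrib]
        refine sum_congr rfl fun b _ => ?_
        by_cases h : f b = f v <;> simp [h, Ne.symm]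
      have h4 : 2 * cr v ≤ k := by simpa [hBad] using hv
      have := hdeg v
      have h5 : 4 * (∑ b ∈ fib g (g v), w v b) ≤ 8 * L * ∑ b ∈ fib g (g v), w v b :=
        Nat.mul_le_mul_right _ (by omega)
      omega
  have hgcross : M * crossWeight w g ≤ (4 * L + 1) * (μ * n ^ 2) := by
    have h1 : crossWeight w g ≤ crossWeight w f + 2 * (Bad.card * n * μ) := by
      have hpt : crossWeight w g ≤ crossWeight w f + between w Bad univ + between w univ Bad := by
        unfold crossWeight between
        rw [← sum_ite_mem_eq (f := fun a => ∑ b, w a b) (s := Bad)]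
        simp only [← sum_add_distrib]
        refine sum_le_sum fun a _ => ?_
        rw [← sum_ite_mem_eq (f := fun b => w a b) (s := Bad)]
        by_cases ha : a ∈ Bad
        · simp only [if_pos ha, ← sum_add_distrib]
          refine sum_le_sum fun b _ => ?_
          split_ifs <;> omega
        · simp only [if_neg ha, add_zero, ← sum_add_distrib]
          refine sum_le_sum fun b _ => ?_
          by_cases hb : b ∈ Bad
          · simp only [if_pos hb]; split_ifs <;> omega
          · simp [hg, ha, hb]
      have h2 := between_le_mul w μ hw Bad univ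
      have h3 := between_comm w hs univ Bad
      simp only [card_univ, ← hn'] at h2
      omega
    calc M * crossWeight w g ≤ M * (crossWeight w f + 2 * (Bad.card * n * μ)) :=
          Nat.mul_le_mul_left _ h1
      _ = M * crossWeight w f + 2 * n * μ * (Bad.card * M) := by ring
      _ ≤ μ * n ^ 2 + 2 * n * μ * (2 * L * n) :=
          add_le_add hfcross (Nat.mul_le_mul_left _ hbad2)
      _ = (4 * L + 1) * (μ * n ^ 2) := by ring
  have hgbig : ∀ v, n ≤ 4 * L * (fib g (g v)).card := by
    intro v
    obtain ⟨u, hu, hfu⟩ : ∃ u, u ∉ Bad ∧ f u = g v := by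
      by_cases hv : v ∈ Bad
      · have := hlab1 v
        simp only [mem_image, mem_univ, true_and] at this
        obtain ⟨x, hx⟩ := this
        obtain ⟨u, hu1, hu2⟩ := hcore x
        exact ⟨u, hu1, by simp [hg, hv, hu2, hx]⟩
      · exact ⟨v, hv, by simp [hg, hv]⟩
    have hgu : g u = g v := by simp [hg, hu] at hfu ⊢; exact hfu
    rw [← hgu]
    have h1 : fib f (f u) \ Bad ⊆ fib g (g u) := by
      intro b hb
      simp only [fib, mem_sdiff, mem_filter, mem_univ, true_and] at hb ⊢
      simp [hg, hu, hb.1, hb.2]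
    have h2 : ∑ b ∈ fib f (f u) \ Bad, w u b ≤ (fib g (g u)).card * μ := by
      refine (sum_le_card_nsmul _ _ μ fun b _ => hw u b).trans ?_
      simpa using Nat.mul_le_mul_right μ (card_le_card h1)
    have h3 : ∑ b ∈ fib f (f u), w u b ≤
        ∑ b ∈ fib f (f u) \ Bad, w u b + μ * Bad.card := by
      rw [← sum_inter_add_sum_sdiff (fib f (f u)) Bad, add_comm]
      refine Nat.add_le_add_left ((sum_le_sum_of_subset inter_subset_right).trans ?_) _
      refine (sum_le_card_nsmul _ _ μ fun b _ => hw u b).trans ?_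
      simp [mul_comm]
    have h4 : ∑ b ∈ fib f (f u), w u b + cr u = ∑ b, w u b := by
      rw [hcr, fib, sum_filter, ← sum_add_distrib]
      refine sum_congr rfl fun b _ => ?_
      by_cases h : f b = f u <;> simp [h, Ne.symm]
    have h5 : 2 * cr u ≤ k := by simpa [hBad] using hu
    have := hdeg u
    have h6 : k ≤ 4 * ((fib g (g u)).card * μ) := by omega
    refine Nat.le_of_mul_le_mul_left (?_ : μ * n ≤ μ * (4 * L * (fib g (g u)).card)) hμ
    calc μ * n ≤ L * k := hμn
      _ ≤ L * (4 * ((fib g (g u)).card * μ)) := Nat.mul_le_mul_left _ h6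
      _ = _ := by ring
  refine ⟨g, by rw [himg]; omega, ?_⟩
  intro i
  suffices key : ∀ X ⊆ fib g i, X.card ≤ (fib g i \ X).card →
      k * X.card ≤ expConst L * between w X (fib g i \ X) by
    intro X hX
    rcases le_total X.card (fib g i \ X).card with h | h
    · rw [min_eq_left h]; exact key X hX h
    · rw [min_eq_right h, between_comm w hs]
      have hXX : fib g i \ (fib g i \ X) = X := Finset.sdiff_sdiff_eq_self hX
      have := key (fib g i \ X) sdiff_subset (by rw [hXX]; exact h)
      rwa [hXX] at this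
  intro X hX hle
  rcases X.eq_empty_or_nonempty with rfl | hXne
  · simp
  set P := fib g i with hP
  set Y := P \ X with hY
  set a := between w X Y with ha
  have hlab' : ∀ x ∈ P, g x = i := fun x hx => (mem_filter.1 hx).2
  by_cases c1 : 16 * L * (μ * X.card) ≤ k
  · have h1 : ∀ x ∈ X, k ≤ 16 * L * ∑ b ∈ Y, w x b := by
      intro x hx
      have h2 := hint x
      rw [hlab' x (hX hx), ← hP, ← sum_sdiff hX, ← hY] at h2
      have h3 : ∑ b ∈ X, w x b ≤ μ * X.card :=
        (sum_le_card_nsmul _ _ μ fun b _ => hw x b).trans (by simp [mul_comm])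
      have h4 : 16 * L * ∑ b ∈ X, w x b ≤ 16 * L * (μ * X.card) := Nat.mul_le_mul_left _ h3
      have h5 : 8 * L * (∑ b ∈ Y, w x b + ∑ b ∈ X, w x b) * 2 =
          16 * L * ∑ b ∈ Y, w x b + 16 * L * ∑ b ∈ X, w x b := by ring
      omega
    have h6 : X.card * k ≤ 16 * L * a := by
      rw [ha, between, mul_sum, ← smul_eq_mul]
      exact card_nsmul_le_sum _ _ _ h1
    calc k * X.card ≤ 16 * L * a := by rw [mul_comm]; exact h6
      _ ≤ expConst L * a := Nat.mul_le_mul_right _ (Nat.le_add_left _ _)
  push Not at c1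
  have hout : between w X (univ \ P) ≤ crossWeight w g := by
    unfold between crossWeight
    refine le_trans ?_ (sum_le_sum_of_subset (subset_univ X))
    refine sum_le_sum fun x hx => ?_
    rw [← sum_filter]
    refine sum_le_sum_of_subset ?_
    intro b hb
    simp only [hP, fib, mem_sdiff, mem_univ, true_and, mem_filter] at hb ⊢
    rw [hlab' x (hX hx)]
    exact Ne.symm hb
  by_cases c2 : 2 * (μ * X.card) ≤ k
  · have h1 : X.card * k ≤ between w X X + between w X Y + between w X (univ \ P) := by
      rw [← between_union_right w X X Y disjoint_sdiff, ← between_union_right, hY,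
        union_sdiff_of_subset hX, union_sdiff_of_subset (subset_univ P), between, ← smul_eq_mul]
      · exact card_nsmul_le_sum _ _ _ fun x _ => hdeg x
      · rw [hY, union_sdiff_of_subset hX]; exact disjoint_sdiff
    have h2 : between w X X * 2 ≤ X.card * k := by
      calc between w X X * 2 ≤ X.card * X.card * μ * 2 :=
            Nat.mul_le_mul_right _ (between_le_mul w μ hw X X)
        _ = X.card * (2 * (μ * X.card)) := by ring
        _ ≤ X.card * k := Nat.mul_le_mul_left _ c2
    have h3 : 4 * crossWeight w g ≤ X.card * k := by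
      refine Nat.le_of_mul_le_mul_right
        (?_ : 4 * crossWeight w g * M ≤ X.card * k * M) (by omega)
      refine Nat.le_of_mul_le_mul_left (?_ : μ * _ ≤ μ * _) hμ
      calc μ * (4 * crossWeight w g * M) = 4 * μ * (M * crossWeight w g) := by ring
        _ ≤ 4 * μ * ((4 * L + 1) * (μ * n ^ 2)) := Nat.mul_le_mul_left _ hgcross
        _ = 4 * (4 * L + 1) * ((μ * n) * (μ * n)) := by ring
        _ ≤ 4 * (4 * L + 1) * ((L * k) * (L * k)) :=
            Nat.mul_le_mul_left _ (Nat.mul_le_mul hμn hμn)
        _ = 4 * (4 * L + 1) * L ^ 2 * k * k := by ring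
        _ ≤ 4 * (4 * L + 1) * L ^ 2 * k * (16 * L * (μ * X.card)) :=
            Nat.mul_le_mul_left _ c1.le
        _ = μ * (X.card * k * (64 * L ^ 3 * (4 * L + 1))) := by ring
        _ ≤ μ * (X.card * k * M) := by
            refine Nat.mul_le_mul_left _ (Nat.mul_le_mul_left _ ?_)
            refine le_trans ?_ hMB
            rw [hB', base]
            exact Nat.mul_le_mul_right _ (Nat.mul_le_mul_right _ (by omega))
    have h4 : k * X.card ≤ 4 * a := by
      have : k * X.card = X.card * k := mul_comm _ _
      omega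
    refine h4.trans (Nat.mul_le_mul_right _ ?_)
    have : 1 ≤ B ^ (4 * L) := Nat.one_le_pow _ _ hB
    rw [expConst, ← hB']
    omega
  push Not at c2
  obtain ⟨z, hz⟩ := Infinite.exists_notMem_finset (univ.image g)
  set h : V → ℕ := fun u => if u ∈ Y then z else g u with hh
  have hXn : n ≤ 4 * L * X.card := by
    refine Nat.le_of_mul_le_mul_left (?_ : μ * n ≤ μ * _) hμ
    calc μ * n ≤ L * k := hμn
      _ ≤ L * (2 * (μ * X.card)) := Nat.mul_le_mul_left _ c2.le
      _ ≤ μ * (4 * L * X.card) := by nlinarith [Nat.zero_le (L * μ * X.card)]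
  have hzne : ∀ u, g u ≠ z := fun u hu => hz (hu ▸ mem_image_of_mem g (mem_univ u))
  have hYne : Y.Nonempty := card_pos.1 (lt_of_lt_of_le hXne.card_pos hle)
  have himh : univ.image h = insert z (univ.image g) := by
    ext j
    simp only [mem_image, mem_univ, true_and, mem_insert]
    constructor
    · rintro ⟨u, rfl⟩
      by_cases hu : u ∈ Y <;> simp [hh, hu]
    · rintro (rfl | ⟨u, rfl⟩)
      · obtain ⟨y, hy⟩ := hYne
        exact ⟨y, by simp [hh, hy]⟩
      · by_cases hu : u ∈ Y
        · obtain ⟨x, hx⟩ := hXne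
          have hxY : x ∉ Y := fun hxy => (mem_sdiff.1 hxy).2 hx
          refine ⟨x, ?_⟩
          simp only [hh, if_neg hxY]
          rw [hlab' x (hX hx), hlab' u (mem_sdiff.1 hu).1]
        · exact ⟨u, by simp [hh, hu]⟩
  have hsizeh : ∀ u, n ≤ 4 * L * (fib h (h u)).card := by
    intro u
    by_cases hu : u ∈ Y
    · have h1 : Y ⊆ fib h (h u) := fun b hb => by simp [fib, hh, hb, hu]
      exact hXn.trans (Nat.mul_le_mul_left _ (hle.trans (card_le_card h1)))
    · by_cases hui : g u = i
      · have h1 : X ⊆ fib h (h u) := fun b hb => by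
          have hbY : b ∉ Y := fun hxy => (mem_sdiff.1 hxy).2 hb
          simp [fib, hh, hu, hbY, hlab' b (hX hb), hui]
        exact hXn.trans (Nat.mul_le_mul_left _ (card_le_card h1))
      · have h1 : fib g (g u) ⊆ fib h (h u) := fun b hb => by
          have hgb : g b = g u := (mem_filter.1 hb).2
          have hbY : b ∉ Y := fun hy => hui (hgb ▸ hlab' b (mem_sdiff.1 hy).1)
          simp [fib, hh, hu, hbY, hgb]
        exact (hgbig u).trans (Nat.mul_le_mul_left _ (card_le_card h1))
  have hcrossh : crossWeight w h ≤ crossWeight w g + 2 * a := by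
    have hpt : crossWeight w h ≤ crossWeight w g + between w X Y + between w Y X := by
      unfold crossWeight between
      rw [← sum_ite_mem_eq (f := fun p => ∑ b ∈ Y, w p b) (s := X),
        ← sum_ite_mem_eq (f := fun p => ∑ b ∈ X, w p b) (s := Y)]
      simp only [← sum_add_distrib]
      refine sum_le_sum fun p _ => ?_
      have e1 : (if p ∈ X then ∑ b ∈ Y, w p b else 0) =
          ∑ b, if p ∈ X ∧ b ∈ Y then w p b else 0 := by
        by_cases hp : p ∈ X <;> simp [hp]
      have e2 : (if p ∈ Y then ∑ b ∈ X, w p b else 0) =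
          ∑ b, if p ∈ Y ∧ b ∈ X then w p b else 0 := by
        by_cases hp : p ∈ Y <;> simp [hp]
      rw [e1, e2, ← sum_add_distrib, ← sum_add_distrib]
      refine sum_le_sum fun b _ => ?_
      by_cases hgg : g p ≠ g b
      · rw [if_pos hgg]; split_ifs <;> omega
      push Not at hgg
      by_cases hhh : h p = h b
      · simp [hhh]
      have hor : (p ∈ X ∧ b ∈ Y) ∨ (p ∈ Y ∧ b ∈ X) := by
        by_cases hp : p ∈ Y <;> by_cases hb : b ∈ Y
        · simp [hh, hp, hb] at hhh
        · refine Or.inr ⟨hp, ?_⟩
          have hbP : b ∈ P := by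
            rw [hP]; simp only [fib, mem_filter, mem_univ, true_and]
            rw [← hgg]; exact hlab' p (mem_sdiff.1 hp).1
          by_contra hbX
          exact hb (mem_sdiff.2 ⟨hbP, hbX⟩)
        · refine Or.inl ⟨?_, hb⟩
          have hpP : p ∈ P := by
            rw [hP]; simp only [fib, mem_filter, mem_univ, true_and]
            rw [hgg]; exact hlab' b (mem_sdiff.1 hb).1
          by_contra hpX
          exact hp (mem_sdiff.2 ⟨hpP, hpX⟩)
        · simp [hh, hp, hb, hgg] at hhh
      rw [if_pos hhh]
      rcases hor with hor | hor <;> rw [if_pos hor] <;> omega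
    rw [between_comm w hs Y X] at hpt
    omega
  have hnot : μ * n ^ 2 < N * crossWeight w h := by
    by_contra hcon
    push Not at hcon
    refine hmax ⟨h, ?_, hsizeh, ?_⟩
    · rw [himh, card_insert_of_notMem hz, himg, hfr]
    · rwa [show 4 * L + 1 - (r + 1) = 4 * L - r by omega]
  have h2g : 2 * (N * crossWeight w g) ≤ μ * n ^ 2 := by
    refine Nat.le_of_mul_le_mul_right (?_ : _ * B ≤ _ * B) hB
    calc 2 * (N * crossWeight w g) * B = 2 * (M * crossWeight w g) := by rw [hMN]; ring
      _ ≤ 2 * ((4 * L + 1) * (μ * n ^ 2)) := Nat.mul_le_mul_left _ hgcross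
      _ = μ * n ^ 2 * (2 * (4 * L + 1)) := by ring
      _ ≤ μ * n ^ 2 * B := by
          refine Nat.mul_le_mul_left _ ?_
          rw [hB', base]
          exact Nat.mul_le_mul_right _ (by
            have : 0 < L ^ 3 := by positivity
            omega)
  have h4a : μ * n ^ 2 ≤ 4 * (N * a) := by
    have : N * crossWeight w h ≤ N * (crossWeight w g + 2 * a) := Nat.mul_le_mul_left _ hcrossh
    rw [mul_add, show N * (2 * a) = 2 * (N * a) by ring] at this
    omega
  calc k * X.card ≤ μ * n * n := Nat.mul_le_mul hkμn (card_le_univ X)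
    _ = μ * n ^ 2 := by ring
    _ ≤ 4 * (N * a) := h4a
    _ = 4 * N * a := by ring
    _ ≤ expConst L * a := by
        refine Nat.mul_le_mul_right _ ?_
        rw [expConst, ← hB', hN]
        have : B ^ (4 * L - r) ≤ B ^ (4 * L) := Nat.pow_le_pow_right hB (Nat.sub_le _ _)
        omega

end Vale.Agent.P061.Dense
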