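import Vale.Agent.P061.Defs

namespace Vale.Agent.P061.Dense

open Finset Vale.Agent.P061

variable {V : Type}

/-- Total weight between two vertex sets, over ordered pairs. -/
def between (w : V → V → ℕ) (A B : Finset V) : ℕ := ∑ a ∈ A, ∑ b ∈ B, w a b

theorem between_comm (w : V → V → ℕ) (hs : ∀ a b, w a b = w b a) (A B : Finset V) :
    between w A B = between w B A := by
  unfold between
  rw [sum_comm]
  simp only [hs]

theorem between_mono (w : V → V → ℕ) {A A' B B' : Finset V} (hA : A ⊆ A') (hB : B ⊆ B') :
    between w A B ≤ between w A' B' :=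
  (sum_le_sum fun _ _ => sum_le_sum_of_subset hB).trans (sum_le_sum_of_subset hA)

theorem between_le_mul (w : V → V → ℕ) (μ : ℕ) (h : ∀ a b, w a b ≤ μ) (A B : Finset V) :
    between w A B ≤ A.card * B.card * μ := by
  refine (sum_le_sum fun a _ => sum_le_card_nsmul B (w a) μ fun b _ => h a b).trans ?_
  simp [mul_assoc]

theorem between_union_right [DecidableEq V] (w : V → V → ℕ) (A B B' : Finset V)
    (hd : Disjoint B B') : between w A (B ∪ B') = between w A B + between w A B' := by
  unfold between
  rw [← sum_add_distrib]
  exact sum_congr rfl fun a _ => sum_union hd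

variable {E : Type} [Fintype E] [Fintype V]

/-- Number of edge copies joining two vertices. -/
noncomputable def mult (ends : E → Sym2 V) (a b : V) : ℕ := by
  classical exact (univ.filter fun e => ends e = s(a, b)).card

theorem mult_comm (ends : E → Sym2 V) (a b : V) : mult ends a b = mult ends b a := by
  unfold mult
  rw [Sym2.eq_swap]

theorem cutSize_eq_between [DecidableEq V] (ends : E → Sym2 V) (S : Finset V) :
    cutSize ends univ S = between (mult ends) S Sᶜ := by
  classical
  unfold cutSize between mult
  rw [← sum_product', ← card_biUnion]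
  · congr 1
    ext e
    simp only [mem_filter, mem_univ, true_and, mem_biUnion, mem_product, mem_compl, Prod.exists,
      Crosses]
    constructor
    · rintro ⟨a, b, he, ha, hb⟩; exact ⟨a, b, ⟨ha, hb⟩, he⟩
    · rintro ⟨a, b, ⟨ha, hb⟩, he⟩; exact ⟨a, b, he, ha, hb⟩
  · rintro ⟨a, b⟩ hab ⟨c, d⟩ hcd hne
    simp only [coe_product, Set.mem_prod, mem_coe, mem_compl] at hab hcd
    rw [Function.onFun, disjoint_left]
    intro e h1 h2
    simp only [mem_filter, mem_univ, true_and] at h1 h2
    rw [h1, Sym2.eq_iff] at h2
    rcases h2 with ⟨rfl, rfl⟩ | ⟨rfl, rfl⟩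
    · exact hne rfl
    · exact hcd.2 hab.1

theorem le_mult_sum [DecidableEq V] (ends : E → Sym2 V) (k : ℕ) (hc : EdgeConn ends k)
    (hV : 2 ≤ Fintype.card V) (v : V) : k ≤ ∑ b, mult ends v b := by
  have h := hc {v} (singleton_nonempty v) (fun h => by
    have : ({v} : Finset V).card = Fintype.card V := by rw [h, card_univ]
    rw [card_singleton] at this; omega)
  rw [cutSize_eq_between] at h
  refine h.trans ?_
  simp only [between, sum_singleton]
  exact sum_le_sum_of_subset (subset_univ _)

end Vale.Agent.P061.Dense
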